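import Vale.Agent.P352R.L1.Pub
import Vale.Agent.P352R.Br
import Vale.Agent.P352W.Net.Hull
import Vale.Agent.P352W.Net.Vn
import Vale.Agent.P352X.Api2b

/-!
# P352R, block L1: the net generated by one local algebra (helper22)
-/

set_option autoImplicit false
set_option linter.all false

noncomputable section

namespace Vale.Agent.P352R.L1

open Vale.Agent.P352 Vale.Agent.P352.GF Vale.Agent.P352.BW Vale.Agent.P352W.Net
open UniformSpace (Completion)
open Topology

variable {D : Type*} [NormedAddCommGroup D] [InnerProductSpace ℂ D] {Q : Theory D}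
  {A : (V → V) → D → D} {O W : Set V} {M : VonNeumannAlgebra (Completion D)}
  {s : ℝ} {L : Ix → V}

theorem ex_u (R : H15.Rep Q A) (hs : 0 < s) (hL : IsLor L) (a : V) :
    ∃ U : Completion D →L[ℂ] Completion D, U * star U = 1 ∧ star U * U = 1 ∧
      ∀ z, U z = Ue Q s L a z := by
  obtain ⟨E, hE⟩ := (ublock R).lin s L a hs hL
  refine ⟨E, ?_, ?_, hE⟩ <;>
    rw [ContinuousLinearMap.star_eq_adjoint, LinearIsometryEquiv.adjoint_eq_symm]
  · exact ContinuousLinearMap.ext E.apply_symm_apply
  · exact ContinuousLinearMap.ext E.symm_apply_apply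

theorem sim_mul (s s' : ℝ) (L L' : Ix → V) (a a' x : V) :
    sim (s * s') (fun m => sim 1 L 0 (L' m)) (sim s L a a') x = sim s L a (sim s' L' a' x) := by
  funext n
  simp only [sim, Pi.zero_apply, zero_add, one_mul, Fin.sum_univ_four]
  ring

theorem sim_one (s : ℝ) (a x : V) : sim s GF.one a x = a + s • x := by
  funext n
  simp [sim, GF.one, bas]

theorem trf_star (R : H15.Rep Q A) : ∀ X ∈ {X | P.Trf Q O M W X}, star X ∈ {X | P.Trf Q O M W X} := by
  rintro X ⟨s, L, a, hs, hL, h, Z, hZ, e⟩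
  obtain ⟨U, i, i', hU⟩ := ex_u R hs hL a
  have e1 : X * U = U * Z := ContinuousLinearMap.ext fun z => by
    show X (U z) = U (Z z)
    rw [hU, hU]
    exact e z
  have e2 : star X * U = U * star Z := by
    have := congrArg star e1
    rw [star_mul, star_mul] at this
    calc star X * U = U * (star U * star X) * U := by rw [← mul_assoc, i, one_mul]
      _ = U * star Z * (star U * U) := by rw [this]; simp only [mul_assoc]
      _ = _ := by rw [i', mul_one]
  exact ⟨s, L, a, hs, hL, h, star Z, star_mem hZ, fun z =>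
    (congrArg _ (hU z).symm).trans ((DFunLike.congr_fun e2 z).trans (hU _))⟩

variable (Q O M) in
/-- the generated net -/
def net (W : Set V) : VonNeumannAlgebra (Completion D) := vn {X | P.Trf Q O M W X}

theorem mem_net (R : H15.Rep Q A) {Y : Completion D →L[ℂ] Completion D} :
    Y ∈ (net Q O M W).commutant ↔ ∀ X, P.Trf Q O M W X → X * Y = Y * X := by
  rw [net, vn_comm, mem_cmt (trf_star R)]
  rfl

theorem net_cov (R : H15.Rep Q A) (s : ℝ) (L : Ix → V) (y : V) (W : Set V)
    (X : Completion D →L[ℂ] Completion D) (m : X ∈ net Q O M W) (hs : 0 < s) (hL : IsLor L) :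
    ∃ Y ∈ net Q O M (sim s L y '' W), ∀ z, Y (Ue Q s L y z) = Ue Q s L y (X z) := by
  obtain ⟨U, i, i', hU⟩ := ex_u R hs hL y
  obtain ⟨Y, hY, e⟩ := vn_cov (trf_star R) (trf_star (W := sim s L y '' W) R) U (star U) i i' (by
    rintro g ⟨s', L', a, hs', hL', h, Z, hZ, e⟩
    refine ⟨U * g * star U, ⟨s * s', _, sim s L y a, mul_pos hs hs', ue_lor hL hL', ?_, Z, hZ,
      fun z => ?_⟩, by rw [mul_assoc, i', mul_one]⟩
    · rintro _ ⟨x, hx, rfl⟩
      exact ⟨_, h ⟨x, hx, rfl⟩, (sim_mul _ _ _ _ _ _ _).symm⟩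
    · have k := fun z => ((ublock R).mul s L y s' L' a z hs hs' hL hL').symm
      have j : ∀ z, (star U) (U z) = z := fun z => DFunLike.congr_fun i' z
      show U (g ((star U) (Ue Q _ _ _ z))) = Ue Q _ _ _ (Z z)
      rw [k, k, ← hU, ← hU, j]
      exact congrArg _ (e z)) X m
  exact ⟨Y, hY, fun z => by
    rw [← hU, ← hU]; exact DFunLike.congr_fun e z⟩

/-- transport of the affiliation -/
theorem aff_tr {U Y : Completion D →L[ℂ] Completion D} {u : D → D} (i' : star U * U = 1)
    (hu : ∀ v : D, U v = (u v : D)) (sur : Function.Surjective u) {n : ℕ} {c : Fin n → ℂ}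
    {X X' : D → D} {C : Fin n → D → D} (ad : ∀ v w, inner ℂ (X v) w = inner ℂ v (X' w))
    (e : ∀ v, ((X (u v) : D) : Completion D) = ∑ i, c i • U (C i v : D))
    (af : ∀ i, P.Aff M (C i)) (hY : star U * Y * U ∈ M.commutant) (v w : D) :
    inner ℂ ((X' w : D) : Completion D) (Y v) = inner ℂ (w : Completion D) (Y (X v : D)) := by
  obtain ⟨v, rfl⟩ := sur v
  obtain ⟨w, rfl⟩ := sur w
  choose C' a b using af
  have st : ∀ x z, inner ℂ (U x) z = inner ℂ x ((star U) z) := fun x z => by
    rw [ContinuousLinearMap.star_eq_adjoint, ContinuousLinearMap.adjoint_inner_right]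
  have j : ∀ z, (star U) (U z) = z := fun z => DFunLike.congr_fun i' z
  have e' : ((X' (u w) : D) : Completion D) = ∑ i, star (c i) • U (C' i w : D) := by
    refine ext_inner_left ℂ fun z => ?_
    induction z using Completion.induction_on with
    | hp => exact isClosed_eq (by fun_prop) (by fun_prop)
    | ih z =>
      obtain ⟨z, rfl⟩ := sur z
      rw [Completion.inner_coe, ← ad, ← Completion.inner_coe, e, sum_inner, _root_.inner_sum, ← hu, ← hu]
      refine Finset.sum_congr rfl fun i _ => ?_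
      rw [inner_smul_left, inner_smul_right, st, st, j, j, Completion.inner_coe,
        Completion.inner_coe, a]
      rfl
  rw [e', e, map_sum, sum_inner, _root_.inner_sum, ← hu, ← hu]
  refine Finset.sum_congr rfl fun i _ => ?_
  rw [map_smul, inner_smul_left, inner_smul_right, st, st]
  simp only [RCLike.star_def, Complex.conj_conj]
  exact congrArg _ (b i _ hY v w)

theorem cv (R : H15.Rep Q A) (cd : ∀ s, 0 < s → P.Cov Q s GF.one 0) (hs : 0 < s) (a : V)
    {B : Fld D} (hB : Q.fld B) : ∃ (n : ℕ) (c : Fin n → ℂ) (C : Fin n → Fld D), (∀ i, Q.fld (C i)) ∧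
      ∀ f v, IsTest f → B f (Q.U s GF.one a v) =
        ∑ i, c i • Q.U s GF.one a (C i (fun x => f (sim s GF.one a x)) v) := by
  have o := H496.isLor_one
  have hi := inv_pos.2 hs
  have oo : (fun m => sim 1 GF.one 0 (GF.one m)) = GF.one := funext fun m => by
    rw [sim_one, one_smul, zero_add]
  have m1 : ∀ v, Q.U 1 GF.one a (Q.U s GF.one 0 v) = Q.U s GF.one a v := fun v => by
    rw [R.mul _ _ _ _ _ _ _ one_pos hs o o, oo, one_mul, sim_one, smul_zero, add_zero]
  have m2 : ∀ {t : ℝ}, 0 < t → ∀ v, Q.U t GF.one 0 (Q.U t⁻¹ GF.one 0 v) = v := fun {t} ht v => by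
    rw [R.mul _ _ _ _ _ _ _ ht (inv_pos.2 ht) o o, oo, mul_inv_cancel₀ ht.ne', sim_one, smul_zero,
      add_zero, H755.Uone]
  obtain ⟨n, c, C, h1, h2⟩ := (cd _ hi).2 B hB
  refine ⟨n, c, C, h1, fun f v hf => ?_⟩
  have t1 := P352X.Ap.test_sim one_pos o a hf
  have k := h2 _ (Q.U s GF.one 0 v) (P352X.Ap.test_sim hs o a hf)
  have e : (fun x => f (sim s GF.one a (sim s⁻¹ GF.one 0 x))) = fun x => f (sim 1 GF.one a x) :=
    funext fun x => by
      rw [sim_one, sim_one, sim_one, zero_add, smul_smul, mul_inv_cancel₀ hs.ne']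
  have m3 := m2 hi v
  rw [inv_inv] at m3
  simp only [e, m3] at k
  have k' := congrArg (ueI Q hs o a) k
  rw [map_sum, ueI_apply, ← m1, m2 hs] at k'
  rw [← m1, Q.transl B a f _ hB hf, k']
  exact Finset.sum_congr rfl fun i _ => by rw [map_smul, ueI_apply]

theorem net_fld (h : P.Lc1 Q A O M) (cd : ∀ s, 0 < s → P.Cov Q s GF.one 0) {B : Fld D} {f : Fn}
    (hW : IsOpen W) (hB : Q.fld B) (hf : P.In W f) : P.Aff (net Q O M W) (B f) := by
  have R := Br.rep.1 h.toRep
  have o := H496.isLor_one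
  obtain ⟨B', hB', ad⟩ := Q.adj B hB
  refine ⟨B' (bar f), fun v w => ad f v w hf.1, fun Y hY v w => ?_⟩
  rw [mem_net R] at hY
  have z0 : ∀ {C : Fld D}, Q.fld C → ∀ v, C (fun _ => 0) v = 0 := fun {C} hC v => by
    have t : IsTest fun _ => 0 := ⟨0, rfl⟩
    have := Q.lin C _ _ 1 v hC t t
    simpa using this
  refine P352X.Ap.in_ind (O := W) (P := fun f => inner ℂ ((B' (bar f) w : D) : Completion D) (Y v) =
    inner ℂ (w : Completion D) (Y (B f v : D))) ?_ (fun f g a b c d => ?_) (fun x hx => ?_) hf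
  · have : (bar fun _ => 0) = fun _ => 0 := funext fun _ => star_zero _
    rw [this, z0 hB, z0 hB', Completion.coe_zero, map_zero, inner_zero_left, inner_zero_right]
  · have e1 := Q.lin B f g 1 v hB a.1 b.1
    have e2 := Q.lin B' _ _ 1 w hB' a.bar.1 b.bar.1
    have e3 : (bar fun x => f x + g x) = fun x => bar f x + 1 * bar g x := funext fun x => by
      simp [bar]
    simp only [one_mul, one_smul] at e1
    rw [e3, e2, e1, one_smul, Completion.coe_add, Completion.coe_add, map_add, inner_add_left,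
      inner_add_right, c, d]
  · obtain ⟨s, hs, sub⟩ : ∃ s : ℝ, 0 < s ∧ sim s GF.one x '' O ⊆ W := by
      obtain ⟨ε, e0, hε⟩ := Metric.isOpen_iff.1 hW x hx
      obtain ⟨r, r0, hr⟩ := h.nbh.2.exists_pos_norm_lt
      refine ⟨ε / r, div_pos e0 r0, ?_⟩
      rintro _ ⟨y, hy, rfl⟩
      refine hε ?_
      rw [sim_one, mem_ball_iff_norm, add_sub_cancel_left, norm_smul, Real.norm_eq_abs,
        abs_of_pos (div_pos e0 r0), div_mul_eq_mul_div, div_lt_iff₀ r0]
      exact mul_lt_mul_of_pos_left (hr y hy) e0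
    have inj : Function.Injective (sim s GF.one x) := fun y y' e => by
      rw [sim_one, sim_one, add_right_inj] at e
      exact smul_right_injective _ hs.ne' e
    refine ⟨sim s GF.one x '' O, ?_, fun g hg => ?_⟩
    · have c : Continuous fun y : V => s⁻¹ • (y - x) := by fun_prop
      have := c.continuousAt (x := x) (show O ∈ 𝓝 (s⁻¹ • (x - x)) by
        rw [sub_self, smul_zero]; exact h.nbh.1)
      refine Filter.mem_of_superset this fun y hy => ⟨_, hy, ?_⟩
      rw [sim_one, smul_smul, mul_inv_cancel₀ hs.ne', one_smul, add_sub_cancel]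
    · obtain ⟨U, i, i', hU⟩ := ex_u R hs o x
      obtain ⟨n, c, C, h1, h2⟩ := cv R cd hs x hB
      have hu : ∀ v : D, U v = (Q.U s GF.one x v : D) := fun v => (hU v).trans (ue_coe hs o x v)
      have g0 := P352X.Ap.in_sim hs o x hg
      have g1 : P.In O fun y => g (sim s GF.one x y) := ⟨g0.1, g0.2.1, fun y hy => by
        obtain ⟨y', a, b⟩ := (g0.2.2 hy).1
        exact inj b ▸ a⟩
      refine aff_tr (M := M) (c := c) (C := fun i => C i fun y => g (sim s GF.one x y)) i' hu
        (fun v => ⟨_, ue_inv R hs o x v⟩) (fun v w => ad g v w hg.1) (fun v => ?_)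
        (fun i => h.fld _ _ (h1 i) g1) (VonNeumannAlgebra.mem_commutant_iff.2 fun Z hZ => ?_) v w
      · rw [h2 g v hg.1]
        refine (map_sum (Completion.toComplL (𝕜 := ℂ)) _ _).trans
          (Finset.sum_congr rfl fun i _ => ?_)
        rw [hu, map_smul]
        rfl
      · have k := hY (U * Z * star U) ⟨s, _, x, hs, o, sub, Z, hZ, fun z =>
          (congrArg _ (hU z).symm).trans ((congrArg (fun y => U (Z y))
            (DFunLike.congr_fun i' z)).trans (hU _))⟩
        calc Z * (star U * Y * U) = star U * (U * Z * star U * Y) * U := by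
              simp only [← mul_assoc, i', one_mul]
          _ = star U * Y * U * Z * (star U * U) := by rw [k]; simp only [mul_assoc]
          _ = _ := by rw [i', mul_one]

/-- **one local algebra generates a local net** -/
theorem lnm (h : P.Lc1 Q A O M) (cd : ∀ s, 0 < s → P.Cov Q s GF.one 0) :
    P.LNm Q A (hl (net Q O M)) :=
  have R := Br.rep.1 h.toRep
  Br.lnm.2 (hull_lnm R _ (fun _ _ _ a b c => net_fld h cd a b c)
    (fun _ _ le => vn_mono (trf_star R) (trf_star R) fun _ ⟨s, L, a, b, c, d, e⟩ =>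
      ⟨s, L, a, b, c, d.trans le, e⟩) (net_cov R) fun a b X ha hb hab =>
    vn_loc (trf_star R) (trf_star R) (fun X x Y y => h.loc a b X Y ha hb hab x y) X)

theorem comm (h : P.Lc1 Q A O M) (hW : IsOpen W) {Y : Completion D →L[ℂ] Completion D}
    (hY : ∀ X, P.Trf Q O M W X → X * Y = Y * X) : Y ∈ (hl (net Q O M) W).commutant :=
  VonNeumannAlgebra.mem_commutant_iff.2 fun g hg => VonNeumannAlgebra.mem_commutant_iff.1
    ((mem_net (Br.rep.1 h.toRep)).2 hY) g (mem_hl.1 hg _ hW subset_rfl)

theorem trf_mem {N : Set V → VonNeumannAlgebra (Completion D)} (h : P.LNm Q A N)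
    {X : Completion D →L[ℂ] Completion D} (x : P.Trf Q O (N O) W X) : X ∈ N W := by
  obtain ⟨s, L, a, hs, hL, le, Z, hZ, e⟩ := x
  obtain ⟨Y, hY, e'⟩ := h.cov s L a O Z hZ hs hL
  rw [eq_of_ue (Br.rep.1 h.toRep) hs hL a (Y := X) (Y' := Y) fun z => (e z).trans (e' z).symm]
  exact h.mono _ _ le Y hY

/-- a local net contains one local algebra -/
theorem lc1 {N : Set V → VonNeumannAlgebra (Completion D)} (h : P.LNm Q A N) :
    P.Lc1 Q A (Metric.ball 0 1) (N (Metric.ball 0 1)) :=
  ⟨h.toRep, ⟨Metric.ball_mem_nhds _ one_pos, Metric.isBounded_ball⟩, h.fld _,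
    fun a b X Y ha hb hab x y => (VonNeumannAlgebra.mem_commutant_iff.1
      (h.loc a b X ha hb hab (trf_mem h x)) Y (trf_mem h y)).symm⟩

end Vale.Agent.P352R.L1
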