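import Vale.Agent.P352R.Pub

namespace Vale.Agent.P352R.P

open P352.GF
open UniformSpace (Completion)

variable {D : Type*} [NormedAddCommGroup D] [InnerProductSpace ℂ D]

/-- `X` is the transform of an element of `M` by a similitude that maps `O` into `W`. -/
def Trf (Q : Theory D) (O : Set V) (M : VonNeumannAlgebra (Completion D)) (W : Set V)
    (X : Completion D →L[ℂ] Completion D) : Prop :=
  ∃ s L a, 0 < s ∧ IsLor L ∧ sim s L a '' O ⊆ W ∧
    ∃ Z ∈ M, ∀ z, X (Ue Q s L a z) = Ue Q s L a (Z z)

/-- **One local algebra.** The fields smeared in a bounded neighbourhood `O` of the origin are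
affiliated to a von Neumann algebra `M`, and the transforms of `M` by similitudes that map `O` into
opposite wedges commute. -/
structure Lc1 (Q : Theory D) (A : (V → V) → D → D) (O : Set V)
    (M : VonNeumannAlgebra (Completion D)) : Prop extends Rep Q A where
  nbh : O ∈ nhds 0 ∧ Bornology.IsBounded O
  fld : ∀ B f, Q.fld B → In O f → Aff M (B f)
  loc : ∀ a b X Y, IsNull a → IsNull b → mdot a b = 1 →
    Trf Q O M (Wdg b a 0) X → Trf Q O M (Wdg a b 0) Y → X * Y = Y * X

end Vale.Agent.P352R.P
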