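import Vale.Agent.P352R.L1.Net
import Vale.Agent.P352R.Cf.Pub
import Vale.Agent.P352R.Cv2

/-!
# P352R, block L1: the fields are covariant under dilations (helper22)
-/

set_option autoImplicit false
set_option linter.all false

namespace Vale.Agent.P352R.L1

open Vale.Agent.P352 Vale.Agent.P352.GF Vale.Agent.P352.BW

variable {D : Type*} [NormedAddCommGroup D] [InnerProductSpace ℂ D] {Q : Theory D}
  {A : (V → V) → D → D}

theorem cd_cnt (R : P.Rep Q A) (h : P.CntF Q) (s : ℝ) (hs : 0 < s) : P.Cov Q s GF.one 0 :=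
  ⟨Function.Surjective.denseRange fun v => ⟨_, ue_inv (Br.rep.1 R) hs H496.isLor_one 0 v⟩,
    fun B hB => have ⟨C, a, _, b⟩ := h.cov s _ B hs H496.isLor_one hB
      ⟨1, fun _ => 1, fun _ => C, fun _ => a, fun f v hf => by
        rw [b f v hf, Fin.sum_univ_one, one_smul]⟩⟩

theorem cd_fsl (R : P.Rep Q A) (h : P.FSL Q) (s : ℝ) (hs : 0 < s) : P.Cov Q s GF.one 0 :=
  Cw.cd_of (P352X.Fss.G.m1_rep (Br.rep.1 R)) h s hs

end Vale.Agent.P352R.L1
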